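import Mathlib

namespace Vale.Agent.Results.P355.GaussEisenstein

open Matrix

/-- Two orthonormal bases of `ℂ^6`, written as the columns of the matrices `U` and `V`,
are mutually unbiased: every inner product of a column of `U` with a column of `V`
has squared modulus `1/6`. -/
def MutuallyUnbiased (U V : Matrix (Fin 6) (Fin 6) ℂ) : Prop :=
  ∀ a b : Fin 6, ‖(Matrix.conjTranspose U * V) a b‖ ^ 2 = 1 / 6

/-- Every entry of `√6 • U` is a Gaussian integer `x + y i` with `x y : ℤ`. -/
def GaussType (U : Matrix (Fin 6) (Fin 6) ℂ) : Prop :=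
  ∀ a b : Fin 6, ∃ x y : ℤ, (Real.sqrt 6 : ℂ) * U a b = (x : ℂ) + (y : ℂ) * Complex.I

/-- The primitive cube root of unity `ω = -1/2 + (√3/2) i`. -/
noncomputable def eisOmega : ℂ := ⟨-1 / 2, Real.sqrt 3 / 2⟩

/-- Every entry of `√6 • U` is an Eisenstein integer `x + y ω` with `x y : ℤ`. -/
def EisensteinType (U : Matrix (Fin 6) (Fin 6) ℂ) : Prop :=
  ∀ a b : Fin 6, ∃ x y : ℤ, (Real.sqrt 6 : ℂ) * U a b = (x : ℂ) + (y : ℂ) * eisOmega

lemma sqrt6_ne : (Real.sqrt 6 : ℂ) ≠ 0 := by
  have : Real.sqrt 6 ≠ 0 := by positivity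
  exact_mod_cast this

lemma sqrt6_sq : (Real.sqrt 6 : ℂ) * (Real.sqrt 6 : ℂ) = 6 := by
  have h : Real.sqrt 6 * Real.sqrt 6 = 6 := Real.mul_self_sqrt (by norm_num)
  exact_mod_cast h

lemma conj_sqrt6 : (starRingEnd ℂ) (Real.sqrt 6 : ℂ) = (Real.sqrt 6 : ℂ) :=
  Complex.conj_ofReal _

lemma no_sum_sq (X Y : ℤ) : X ^ 2 + Y ^ 2 ≠ 6 := by
  intro h
  have hX : X ^ 2 ≤ 6 := by nlinarith [sq_nonneg Y]
  have hX1 : -2 ≤ X := by nlinarith
  have hX2 : X ≤ 2 := by nlinarith
  have hY : Y ^ 2 ≤ 6 := by nlinarith [sq_nonneg X]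
  have hY1 : -2 ≤ Y := by nlinarith
  have hY2 : Y ≤ 2 := by nlinarith
  interval_cases X <;> interval_cases Y <;> omega

lemma no_eis (X Y : ℤ) : X ^ 2 - X * Y + Y ^ 2 ≠ 6 := by
  intro h
  have hY : Y ^ 2 ≤ 8 := by nlinarith [sq_nonneg (2 * X - Y)]
  have hY1 : -2 ≤ Y := by nlinarith
  have hY2 : Y ≤ 2 := by nlinarith
  have hX : X ^ 2 ≤ 8 := by nlinarith [sq_nonneg (2 * Y - X)]
  have hX1 : -2 ≤ X := by nlinarith
  have hX2 : X ≤ 2 := by nlinarith
  interval_cases X <;> interval_cases Y <;> omega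

/-- the entry of `Uᴴ * V` as a sum -/
lemma entry_eq (U V : Matrix (Fin 6) (Fin 6) ℂ) (a b : Fin 6) :
    (6 : ℂ) * (Uᴴ * V) a b
      = ∑ j : Fin 6, (starRingEnd ℂ) ((Real.sqrt 6 : ℂ) * U j a) * ((Real.sqrt 6 : ℂ) * V j b) := by
  rw [Matrix.mul_apply, Finset.mul_sum]
  refine Finset.sum_congr rfl fun j _ => ?_
  rw [Matrix.conjTranspose_apply, map_mul, conj_sqrt6]
  have := sqrt6_sq
  simp only [RCLike.star_def]
  linear_combination (-(starRingEnd ℂ) (U j a) * V j b) * this

lemma gauss_not_unbiased (U V : Matrix (Fin 6) (Fin 6) ℂ) (hU : GaussType U) (hV : GaussType V)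
    (a b : Fin 6) : ‖(Uᴴ * V) a b‖ ^ 2 ≠ 1 / 6 := by
  intro h
  choose x y hxy using hU
  choose x' y' hxy' using hV
  have key : (6 : ℂ) * (Uᴴ * V) a b
      = ((∑ j : Fin 6, (x j a * x' j b + y j a * y' j b) : ℤ) : ℂ)
        + ((∑ j : Fin 6, (x j a * y' j b - y j a * x' j b) : ℤ) : ℂ) * Complex.I := by
    rw [entry_eq]
    push_cast
    rw [Finset.sum_mul, ← Finset.sum_add_distrib]
    refine Finset.sum_congr rfl fun j _ => ?_
    rw [hxy, hxy']
    simp only [map_add, map_mul, map_intCast, Complex.conj_I]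
    linear_combination (-(y j a : ℂ) * (y' j b : ℂ)) * Complex.I_sq
  set X : ℤ := ∑ j : Fin 6, (x j a * x' j b + y j a * y' j b) with hX
  set Y : ℤ := ∑ j : Fin 6, (x j a * y' j b - y j a * x' j b) with hY
  have h2 : ‖(6 : ℂ) * (Uᴴ * V) a b‖ ^ 2 = 6 := by
    rw [norm_mul, mul_pow, h]
    norm_num
  rw [key, ← Complex.normSq_eq_norm_sq, Complex.normSq_apply] at h2
  simp only [Complex.add_re, Complex.intCast_re, Complex.mul_re, Complex.I_re, mul_zero,
    Complex.intCast_im, Complex.I_im, mul_one, sub_self, add_zero, Complex.add_im,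
    Complex.mul_im, zero_add] at h2
  have h3 : X ^ 2 + Y ^ 2 = 6 := by
    have : ((X ^ 2 + Y ^ 2 : ℤ) : ℝ) = 6 := by push_cast; nlinarith
    exact_mod_cast this
  exact no_sum_sq X Y h3

lemma omega_conj : (starRingEnd ℂ) eisOmega = -1 - eisOmega := by
  apply Complex.ext
  · simp [eisOmega]; ring
  · simp [eisOmega]

lemma omega_sq : eisOmega * eisOmega = -1 - eisOmega := by
  have h3 : Real.sqrt 3 * Real.sqrt 3 = 3 := Real.mul_self_sqrt (by norm_num)
  apply Complex.ext
  · simp only [eisOmega, Complex.mul_re, Complex.sub_re, Complex.neg_re, Complex.one_re]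
    nlinarith
  · simp only [eisOmega, Complex.mul_im, Complex.sub_im, Complex.neg_im, Complex.one_im]
    ring

lemma normSq_eis (X Y : ℝ) :
    Complex.normSq ((X : ℂ) + (Y : ℂ) * eisOmega) = X ^ 2 - X * Y + Y ^ 2 := by
  have h3 : Real.sqrt 3 * Real.sqrt 3 = 3 := Real.mul_self_sqrt (by norm_num)
  rw [Complex.normSq_apply]
  simp only [eisOmega, Complex.add_re, Complex.ofReal_re, Complex.mul_re, Complex.ofReal_im,
    Complex.add_im, Complex.mul_im]
  nlinarith

lemma eis_not_unbiased (U V : Matrix (Fin 6) (Fin 6) ℂ) (hU : EisensteinType U)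
    (hV : EisensteinType V) (a b : Fin 6) : ‖(Uᴴ * V) a b‖ ^ 2 ≠ 1 / 6 := by
  intro h
  choose x y hxy using hU
  choose x' y' hxy' using hV
  have key : (6 : ℂ) * (Uᴴ * V) a b
      = ((∑ j : Fin 6, (x j a * x' j b + y j a * y' j b - y j a * x' j b) : ℤ) : ℂ)
        + ((∑ j : Fin 6, (x j a * y' j b - y j a * x' j b) : ℤ) : ℂ) * eisOmega := by
    rw [entry_eq]
    push_cast
    rw [Finset.sum_mul, ← Finset.sum_add_distrib]
    refine Finset.sum_congr rfl fun j _ => ?_
    rw [hxy, hxy']
    simp only [map_add, map_mul, map_intCast, omega_conj]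
    linear_combination (-(y j a : ℂ) * (y' j b : ℂ)) * omega_sq
  set X : ℤ := ∑ j : Fin 6, (x j a * x' j b + y j a * y' j b - y j a * x' j b) with hX
  set Y : ℤ := ∑ j : Fin 6, (x j a * y' j b - y j a * x' j b) with hY
  have h2 : ‖(6 : ℂ) * (Uᴴ * V) a b‖ ^ 2 = 6 := by
    rw [norm_mul, mul_pow, h]
    norm_num
  rw [key, ← Complex.normSq_eq_norm_sq] at h2
  have h2' := normSq_eis (X : ℝ) (Y : ℝ)
  push_cast at h2'
  rw [h2'] at h2
  have h3 : X ^ 2 - X * Y + Y ^ 2 = 6 := by
    have : ((X ^ 2 - X * Y + Y ^ 2 : ℤ) : ℝ) = 6 := by push_cast; linarith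
    exact_mod_cast this
  exact no_eis X Y h3

lemma one_not_unbiased : ¬ MutuallyUnbiased (1 : Matrix (Fin 6) (Fin 6) ℂ) 1 := by
  intro h
  have h0 := h 0 0
  simp at h0

/-- In any family of pairwise mutually unbiased orthonormal bases of `ℂ^6` (the columns of the
unitary matrices `U i`), at most one basis has all its coordinates in `(1/√6) ℤ[i]`, and at most
one has all its coordinates in `(1/√6) ℤ[ω]`.  Consequently, if every basis of the family is the
standard basis or of one of these two kinds, the family has at most three members. -/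
theorem result :
    ∀ (k : ℕ) (U : Fin k → Matrix (Fin 6) (Fin 6) ℂ),
      (∀ i, U i ∈ Matrix.unitaryGroup (Fin 6) ℂ) →
      (∀ i j, i ≠ j → MutuallyUnbiased (U i) (U j)) →
      (∀ i j, GaussType (U i) → GaussType (U j) → i = j) ∧
      (∀ i j, EisensteinType (U i) → EisensteinType (U j) → i = j) ∧
      ((∀ i, U i = 1 ∨ GaussType (U i) ∨ EisensteinType (U i)) → k ≤ 3) := by
  intro k U _ hMU
  have hG : ∀ i j, GaussType (U i) → GaussType (U j) → i = j := by
    intro i j hi hj
    by_contra hne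
    exact gauss_not_unbiased (U i) (U j) hi hj 0 0 (hMU i j hne 0 0)
  have hE : ∀ i j, EisensteinType (U i) → EisensteinType (U j) → i = j := by
    intro i j hi hj
    by_contra hne
    exact eis_not_unbiased (U i) (U j) hi hj 0 0 (hMU i j hne 0 0)
  have hI : ∀ i j, U i = 1 → U j = 1 → i = j := by
    intro i j hi hj
    by_contra hne
    have := hMU i j hne
    rw [hi, hj] at this
    exact one_not_unbiased this
  refine ⟨hG, hE, fun hall => ?_⟩
  classical
  let f : Fin k → Fin 3 := fun i =>
    if U i = 1 then 0 else if GaussType (U i) then 1 else 2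
  have hf : Function.Injective f := by
    intro i j hij
    by_cases h1 : U i = 1
    · by_cases h1' : U j = 1
      · exact hI i j h1 h1'
      · exfalso
        by_cases h2' : GaussType (U j)
        · simp [f, h1, h1', h2'] at hij
        · simp [f, h1, h1', h2'] at hij
    · by_cases h2 : GaussType (U i)
      · by_cases h1' : U j = 1
        · exfalso
          simp [f, h1, h1', h2] at hij
        · by_cases h2' : GaussType (U j)
          · exact hG i j h2 h2'
          · exfalso
            simp [f, h1, h1', h2, h2'] at hij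
      · have h3 : EisensteinType (U i) := by
          rcases hall i with h | h | h
          · exact absurd h h1
          · exact absurd h h2
          · exact h
        by_cases h1' : U j = 1
        · exfalso
          simp [f, h1, h1', h2] at hij
        · by_cases h2' : GaussType (U j)
          · exfalso
            simp [f, h1, h1', h2, h2'] at hij
          · have h3' : EisensteinType (U j) := by
              rcases hall j with h | h | h
              · exact absurd h h1'
              · exact absurd h h2'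
              · exact h
            exact hE i j h3 h3'
  simpa using Fintype.card_le_of_injective f hf

end Vale.Agent.Results.P355.GaussEisenstein
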