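import Mathlib
import Vale.Agent.Results.P355.GaussEisenstein

/-!
# P355 (mutually unbiased bases in dimension six): the arithmetic obstruction for single vectors

The hand-in `GaussEisenstein` excludes two mutually unbiased bases of `ℂ^6` whose coordinates all
lie in `(1/√6) ℤ[i]` (or all in `(1/√6) ℤ[ω]`).  Here the same obstruction is proved for single
vectors and up to phase factors: two vectors of `ℂ^6` that are, each up to its own phase factor,
`1/√6` times vectors of Gaussian integers never have an inner product of squared modulus `1/6`,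
and likewise for Eisenstein integers.  Hence, in a family of pairwise mutually unbiased bases, at
most one basis contains such a Gaussian vector at all, at most one contains such an Eisenstein
vector, and at most three members are the standard basis or contain such a vector.
-/

namespace Vale.Agent.Results.P355.GaussEisensteinRays

open Matrix
open Vale.Agent.Results.P355.GaussEisenstein
  (MutuallyUnbiased eisOmega GaussType EisensteinType gauss_not_unbiased eis_not_unbiased
    one_not_unbiased)

/-- `u ∈ ℂ^6` is, up to a phase factor `c` with `|c| = 1`, equal to `1/√6` times a vector of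
Gaussian integers: every coordinate of `√6 • (c • u)` is `x + y i` with `x y : ℤ`. -/
def GaussRay (u : Fin 6 → ℂ) : Prop :=
  ∃ c : ℂ, ‖c‖ = 1 ∧
    ∀ j : Fin 6, ∃ x y : ℤ, (Real.sqrt 6 : ℂ) * (c * u j) = (x : ℂ) + (y : ℂ) * Complex.I

/-- `u ∈ ℂ^6` is, up to a phase factor `c` with `|c| = 1`, equal to `1/√6` times a vector of
Eisenstein integers: every coordinate of `√6 • (c • u)` is `x + y ω` with `x y : ℤ`. -/
def EisensteinRay (u : Fin 6 → ℂ) : Prop :=
  ∃ c : ℂ, ‖c‖ = 1 ∧
    ∀ j : Fin 6, ∃ x y : ℤ, (Real.sqrt 6 : ℂ) * (c * u j) = (x : ℂ) + (y : ℂ) * eisOmega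

/-- The inner product of `c • u` and `c' • v` as an entry of a matrix product. -/
lemma entry_const (u v : Fin 6 → ℂ) (c c' : ℂ) :
    ((Matrix.of fun (a : Fin 6) (_ : Fin 6) => c * u a)ᴴ *
        (Matrix.of fun (a : Fin 6) (_ : Fin 6) => c' * v a)) 0 0
      = (starRingEnd ℂ) c * c' * ∑ j : Fin 6, (starRingEnd ℂ) (u j) * v j := by
  rw [Matrix.mul_apply, Finset.mul_sum]
  refine Finset.sum_congr rfl fun j _ => ?_
  simp only [Matrix.conjTranspose_apply, Matrix.of_apply, RCLike.star_def, map_mul]
  ring

lemma norm_phase (c c' z : ℂ) (hc : ‖c‖ = 1) (hc' : ‖c'‖ = 1) :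
    ‖(starRingEnd ℂ) c * c' * z‖ = ‖z‖ := by
  rw [norm_mul, norm_mul, RCLike.norm_conj, hc, hc', one_mul, one_mul]

lemma gauss_ray_not_unbiased (u v : Fin 6 → ℂ) (hu : GaussRay u) (hv : GaussRay v) :
    ‖∑ j : Fin 6, (starRingEnd ℂ) (u j) * v j‖ ^ 2 ≠ 1 / 6 := by
  obtain ⟨c, hc, hcu⟩ := hu
  obtain ⟨c', hc', hcv⟩ := hv
  have hU : GaussType (Matrix.of fun (a : Fin 6) (_ : Fin 6) => c * u a) := fun a _ => hcu a
  have hV : GaussType (Matrix.of fun (a : Fin 6) (_ : Fin 6) => c' * v a) := fun a _ => hcv a
  have h := gauss_not_unbiased _ _ hU hV 0 0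
  rw [entry_const, norm_phase _ _ _ hc hc'] at h
  exact h

lemma eis_ray_not_unbiased (u v : Fin 6 → ℂ) (hu : EisensteinRay u) (hv : EisensteinRay v) :
    ‖∑ j : Fin 6, (starRingEnd ℂ) (u j) * v j‖ ^ 2 ≠ 1 / 6 := by
  obtain ⟨c, hc, hcu⟩ := hu
  obtain ⟨c', hc', hcv⟩ := hv
  have hU : EisensteinType (Matrix.of fun (a : Fin 6) (_ : Fin 6) => c * u a) :=
    fun a _ => hcu a
  have hV : EisensteinType (Matrix.of fun (a : Fin 6) (_ : Fin 6) => c' * v a) :=
    fun a _ => hcv a
  have h := eis_not_unbiased _ _ hU hV 0 0
  rw [entry_const, norm_phase _ _ _ hc hc'] at h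
  exact h

/-- The entry `(b, b')` of `Uᴴ * V` is the inner product of column `b` of `U` with column `b'`
of `V`. -/
lemma entry_cols (U V : Matrix (Fin 6) (Fin 6) ℂ) (b b' : Fin 6) :
    (Uᴴ * V) b b' = ∑ a : Fin 6, (starRingEnd ℂ) (U a b) * V a b' := by
  rw [Matrix.mul_apply]
  refine Finset.sum_congr rfl fun a _ => ?_
  simp only [Matrix.conjTranspose_apply, RCLike.star_def]

/-- (1), (2): two vectors of `ℂ^6` that are, up to phase factors, `1/√6` times vectors of Gaussian
integers (or both of Eisenstein integers) never have an inner product of squared modulus `1/6`.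
(3): in every family of pairwise mutually unbiased `6 × 6` matrices (in particular, of unitary
matrices whose columns are pairwise mutually unbiased orthonormal bases of `ℂ^6`), at most one
member has a column that is such a Gaussian vector, at most one member has a column that is
such an Eisenstein vector, and at most three members are the identity matrix or have a column of
one of these two kinds. -/
theorem result :
    (∀ u v : Fin 6 → ℂ, GaussRay u → GaussRay v →
        ‖∑ j : Fin 6, (starRingEnd ℂ) (u j) * v j‖ ^ 2 ≠ 1 / 6) ∧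
    (∀ u v : Fin 6 → ℂ, EisensteinRay u → EisensteinRay v →
        ‖∑ j : Fin 6, (starRingEnd ℂ) (u j) * v j‖ ^ 2 ≠ 1 / 6) ∧
    ∀ (k : ℕ) (U : Fin k → Matrix (Fin 6) (Fin 6) ℂ),
      (∀ i j, i ≠ j → MutuallyUnbiased (U i) (U j)) →
      (∀ i j, (∃ b, GaussRay fun a => U i a b) → (∃ b, GaussRay fun a => U j a b) → i = j) ∧
      (∀ i j, (∃ b, EisensteinRay fun a => U i a b) → (∃ b, EisensteinRay fun a => U j a b) →
        i = j) ∧
      ∀ s : Finset (Fin k),
        (∀ i ∈ s, U i = 1 ∨ (∃ b, GaussRay fun a => U i a b) ∨
          (∃ b, EisensteinRay fun a => U i a b)) → s.card ≤ 3 := by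
  refine ⟨gauss_ray_not_unbiased, eis_ray_not_unbiased, ?_⟩
  intro k U hMU
  have hG : ∀ i j, (∃ b, GaussRay fun a => U i a b) → (∃ b, GaussRay fun a => U j a b) →
      i = j := by
    rintro i j ⟨b, hb⟩ ⟨b', hb'⟩
    by_contra hne
    have h := hMU i j hne b b'
    rw [entry_cols] at h
    exact gauss_ray_not_unbiased _ _ hb hb' h
  have hE : ∀ i j, (∃ b, EisensteinRay fun a => U i a b) →
      (∃ b, EisensteinRay fun a => U j a b) → i = j := by
    rintro i j ⟨b, hb⟩ ⟨b', hb'⟩
    by_contra hne
    have h := hMU i j hne b b'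
    rw [entry_cols] at h
    exact eis_ray_not_unbiased _ _ hb hb' h
  have hI : ∀ i j, U i = 1 → U j = 1 → i = j := by
    intro i j hi hj
    by_contra hne
    have := hMU i j hne
    rw [hi, hj] at this
    exact one_not_unbiased this
  refine ⟨hG, hE, fun s hs => ?_⟩
  classical
  let f : Fin k → Fin 3 := fun i =>
    if U i = 1 then 0 else if (∃ b, GaussRay fun a => U i a b) then 1 else 2
  have hf : Set.InjOn f (s : Set (Fin k)) := by
    intro i hi j hj hij
    by_cases h1 : U i = 1
    · by_cases h1' : U j = 1
      · exact hI i j h1 h1'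
      · exfalso
        by_cases h2' : (∃ b, GaussRay fun a => U j a b)
        · simp [f, h1, h1', h2'] at hij
        · simp [f, h1, h1', h2'] at hij
    · by_cases h2 : (∃ b, GaussRay fun a => U i a b)
      · by_cases h1' : U j = 1
        · exfalso
          simp [f, h1, h1', h2] at hij
        · by_cases h2' : (∃ b, GaussRay fun a => U j a b)
          · exact hG i j h2 h2'
          · exfalso
            simp [f, h1, h1', h2, h2'] at hij
      · have h3 : (∃ b, EisensteinRay fun a => U i a b) := by
          rcases hs i hi with h | h | h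
          · exact absurd h h1
          · exact absurd h h2
          · exact h
        by_cases h1' : U j = 1
        · exfalso
          simp [f, h1, h1', h2] at hij
        · by_cases h2' : (∃ b, GaussRay fun a => U j a b)
          · exfalso
            simp [f, h1, h1', h2, h2'] at hij
          · have h3' : (∃ b, EisensteinRay fun a => U j a b) := by
              rcases hs j hj with h | h | h
              · exact absurd h h1'
              · exact absurd h h2'
              · exact h
            exact hE i j h3 h3'
  have hcard := Finset.card_le_card_of_injOn f (t := (Finset.univ : Finset (Fin 3)))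
    (fun i _ => Finset.mem_univ _) hf
  simpa using hcard

end Vale.Agent.Results.P355.GaussEisensteinRays
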