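import Mathlib
import Vale.Agent.Results.P355.GaussEisensteinRays

/-!
# P355 (mutually unbiased bases in dimension six): vectors of roots of unity of prime-power order

Let `p ≥ 7` be a prime.  Six roots of unity of `p`-power order never add up to a complex number
of modulus `√6`: if `z_1, …, z_6` are powers of a primitive `p^m`-th root of unity `ζ` and
`|z_1 + ⋯ + z_6|^2 = 6`, then `ζ` is a root of an integer polynomial `P` with `P(1) = 36 - 6 = 30`;
the cyclotomic polynomial `Φ_{p^m}` divides `P` and `Φ_{p^m}(1) = p`, so `p ∣ 30`.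
Consequently two vectors of `ℂ^6` that are, each up to its own phase factor, `1/√6` times vectors
of roots of unity of `p`-power order never have an inner product of squared modulus `1/6`, and a
family of pairwise mutually unbiased bases contains at most one basis with such a vector.
Together with the hand-in `GaussEisensteinRays` this gives: if one basis of the family contains
the vector `(1, …, 1)/√6`, then no vector of any other basis of the family is a phase multiple of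
`1/√6` times a vector of Gaussian integers, of Eisenstein integers, or of roots of unity of
`p`-power order for a prime `p ≥ 7`.
-/

namespace Vale.Agent.Results.P355.PrimePowerRootRays

open Matrix Polynomial
open Vale.Agent.Results.P355.GaussEisenstein (MutuallyUnbiased eisOmega)
open Vale.Agent.Results.P355.GaussEisensteinRays
  (GaussRay EisensteinRay norm_phase entry_cols gauss_ray_not_unbiased eis_ray_not_unbiased)

/-- `u ∈ ℂ^6` is, up to a phase factor `c` with `|c| = 1`, equal to `1/√6` times a vector of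
roots of unity of `p`-power order: for some `k`, every coordinate `z` of `√6 • (c • u)` satisfies
`z ^ (p ^ k) = 1`. -/
def RootRay (p : ℕ) (u : Fin 6 → ℂ) : Prop :=
  ∃ c : ℂ, ‖c‖ = 1 ∧ ∃ k : ℕ, ∀ j : Fin 6, ((Real.sqrt 6 : ℂ) * (c * u j)) ^ (p ^ k) = 1

/-- An integer polynomial vanishing at a primitive `p^(K+1)`-th root of unity has a value at `1`
that is divisible by `p` (because `Φ_{p^(K+1)}` divides it and `Φ_{p^(K+1)}(1) = p`). -/
lemma prime_dvd_eval_one (p K : ℕ) (hp : p.Prime) (ζ : ℂ) (hζ : IsPrimitiveRoot ζ (p ^ (K + 1)))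
    (P : ℤ[X]) (hP : aeval ζ P = 0) : (p : ℤ) ∣ P.eval 1 := by
  have : Fact p.Prime := ⟨hp⟩
  have hpos : 0 < p ^ (K + 1) := pow_pos hp.pos _
  have h1 : cyclotomic (p ^ (K + 1)) ℤ ∣ P := by
    rw [cyclotomic_eq_minpoly hζ hpos]
    exact minpoly.isIntegrallyClosed_dvd (hζ.isIntegral hpos) hP
  obtain ⟨Q, rfl⟩ := h1
  rw [eval_mul, eval_one_cyclotomic_prime_pow]
  exact dvd_mul_right _ _

/-- Six powers of a primitive `p^(K+1)`-th root of unity never add up to a number of modulus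
`√6` when `p` does not divide `30`. -/
lemma sum_roots_norm_sq_ne_six (p K : ℕ) (hp : p.Prime) (h30 : ¬ p ∣ 30) (ζ : ℂ)
    (hζ : IsPrimitiveRoot ζ (p ^ (K + 1))) (e : Fin 6 → ℕ) :
    ‖∑ j : Fin 6, ζ ^ e j‖ ^ 2 ≠ 6 := by
  intro h
  have hqpos : 0 < p ^ (K + 1) := pow_pos hp.pos _
  have hζq : ζ ^ (p ^ (K + 1)) = 1 := hζ.pow_eq_one
  have hnorm : ‖ζ‖ = 1 := Complex.norm_eq_one_of_pow_eq_one hζq hqpos.ne'
  have hconj : (starRingEnd ℂ) ζ = ζ ^ (p ^ (K + 1) - 1) := by
    rw [← Complex.inv_eq_conj hnorm]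
    symm
    apply eq_inv_of_mul_eq_one_left
    rw [← pow_succ, Nat.sub_add_cancel hqpos, hζq]
  have h1 : ((‖∑ j : Fin 6, ζ ^ e j‖ ^ 2 : ℝ) : ℂ)
      = (∑ j : Fin 6, ζ ^ e j) * (starRingEnd ℂ) (∑ j : Fin 6, ζ ^ e j) := by
    rw [Complex.mul_conj, Complex.normSq_eq_norm_sq]
  rw [h] at h1
  have hP : aeval ζ (∑ j : Fin 6, ∑ l : Fin 6, (X : ℤ[X]) ^ (e j + (p ^ (K + 1) - 1) * e l) - C 6)
      = 0 := by
    simp only [map_sub, map_sum, map_pow, aeval_X, aeval_C, hconj] at h1 ⊢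
    rw [Finset.sum_mul_sum] at h1
    have h2 : ∀ j l : Fin 6, ζ ^ (e j + (p ^ (K + 1) - 1) * e l)
        = ζ ^ e j * (ζ ^ (p ^ (K + 1) - 1)) ^ e l := fun j l => by
      rw [pow_add, pow_mul]
    simp only [h2]
    rw [← h1]
    simp
  have hdvd := prime_dvd_eval_one p K hp ζ hζ _ hP
  have heval : (∑ j : Fin 6, ∑ l : Fin 6, (X : ℤ[X]) ^ (e j + (p ^ (K + 1) - 1) * e l) - C 6).eval 1
      = 30 := by
    simp [eval_finsetSum]
  rw [heval] at hdvd
  exact h30 (by exact_mod_cast hdvd)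

lemma not_dvd_thirty (p : ℕ) (hp : p.Prime) (h7 : 7 ≤ p) : ¬ p ∣ 30 := by
  intro hd
  have h30 : (30 : ℕ) = 2 * (3 * 5) := by norm_num
  rw [h30] at hd
  rcases (Nat.Prime.dvd_mul hp).1 hd with h | h
  · have := Nat.le_of_dvd (by norm_num) h
    omega
  · rcases (Nat.Prime.dvd_mul hp).1 h with h | h
    · have := Nat.le_of_dvd (by norm_num) h
      omega
    · have := Nat.le_of_dvd (by norm_num) h
      omega

lemma root_ray_not_unbiased (p : ℕ) (hp : p.Prime) (h7 : 7 ≤ p) (u v : Fin 6 → ℂ)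
    (hu : RootRay p u) (hv : RootRay p v) :
    ‖∑ j : Fin 6, (starRingEnd ℂ) (u j) * v j‖ ^ 2 ≠ 1 / 6 := by
  have h30 := not_dvd_thirty p hp h7
  obtain ⟨c, hc, k, hcu⟩ := hu
  obtain ⟨c', hc', k', hcv⟩ := hv
  intro h
  have hqpos : 0 < p ^ (k + k' + 1) := pow_pos hp.pos _
  have hζ : IsPrimitiveRoot (Complex.exp (2 * Real.pi * Complex.I / ((p ^ (k + k' + 1) : ℕ) : ℂ)))
      (p ^ (k + k' + 1)) := Complex.isPrimitiveRoot_exp _ hqpos.ne'
  have hne : NeZero (p ^ (k + k' + 1)) := ⟨hqpos.ne'⟩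
  have ha : ∀ j, ((Real.sqrt 6 : ℂ) * (c * u j)) ^ (p ^ (k + k' + 1)) = 1 := fun j => by
    have : p ^ (k + k' + 1) = p ^ k * p ^ (k' + 1) := by rw [← pow_add, add_assoc]
    rw [this, pow_mul, hcu j, one_pow]
  have hb : ∀ j, ((Real.sqrt 6 : ℂ) * (c' * v j)) ^ (p ^ (k + k' + 1)) = 1 := fun j => by
    have : p ^ (k + k' + 1) = p ^ k' * p ^ (k + 1) := by rw [← pow_add]; congr 1; omega
    rw [this, pow_mul, hcv j, one_pow]
  have ht : ∀ j, ((starRingEnd ℂ) ((Real.sqrt 6 : ℂ) * (c * u j)) *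
      ((Real.sqrt 6 : ℂ) * (c' * v j))) ^ (p ^ (k + k' + 1)) = 1 := fun j => by
    rw [mul_pow, ← map_pow, ha j, hb j, map_one, one_mul]
  have hex : ∀ j, ∃ i : ℕ, Complex.exp (2 * Real.pi * Complex.I / ((p ^ (k + k' + 1) : ℕ) : ℂ)) ^ i
      = (starRingEnd ℂ) ((Real.sqrt 6 : ℂ) * (c * u j)) * ((Real.sqrt 6 : ℂ) * (c' * v j)) :=
    fun j => by
      obtain ⟨i, -, hi⟩ := hζ.eq_pow_of_pow_eq_one (ht j)
      exact ⟨i, hi⟩
  choose e he using hex
  have h6 : (Real.sqrt 6 : ℂ) * (Real.sqrt 6 : ℂ) = 6 := by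
    rw [← Complex.ofReal_mul, Real.mul_self_sqrt (by norm_num)]
    norm_num
  have hsum : ∑ j, Complex.exp (2 * Real.pi * Complex.I / ((p ^ (k + k' + 1) : ℕ) : ℂ)) ^ e j
      = 6 * ((starRingEnd ℂ) c * c' * ∑ j, (starRingEnd ℂ) (u j) * v j) := by
    rw [Finset.mul_sum, Finset.mul_sum]
    refine Finset.sum_congr rfl fun j _ => ?_
    rw [he j]
    simp only [map_mul, Complex.conj_ofReal]
    linear_combination ((starRingEnd ℂ) c * c' * (starRingEnd ℂ) (u j) * v j) * h6
  apply sum_roots_norm_sq_ne_six p (k + k') hp h30 _ hζ e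
  rw [hsum, norm_mul, norm_phase _ _ _ hc hc', mul_pow, h]
  norm_num

lemma sqrt_six_ne_zero : (Real.sqrt 6 : ℂ) ≠ 0 :=
  Complex.ofReal_ne_zero.mpr (Real.sqrt_ne_zero'.mpr (by norm_num))

lemma flat_gauss (u : Fin 6 → ℂ) (hu : ∀ a, u a = (Real.sqrt 6 : ℂ)⁻¹) : GaussRay u := by
  refine ⟨1, norm_one, fun j => ⟨1, 0, ?_⟩⟩
  rw [hu j, one_mul, mul_inv_cancel₀ sqrt_six_ne_zero]
  simp

lemma flat_eis (u : Fin 6 → ℂ) (hu : ∀ a, u a = (Real.sqrt 6 : ℂ)⁻¹) : EisensteinRay u := by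
  refine ⟨1, norm_one, fun j => ⟨1, 0, ?_⟩⟩
  rw [hu j, one_mul, mul_inv_cancel₀ sqrt_six_ne_zero]
  simp

lemma flat_root (p : ℕ) (u : Fin 6 → ℂ) (hu : ∀ a, u a = (Real.sqrt 6 : ℂ)⁻¹) : RootRay p u := by
  refine ⟨1, norm_one, 0, fun j => ?_⟩
  rw [hu j, one_mul, mul_inv_cancel₀ sqrt_six_ne_zero, one_pow]

/-- (1): for a prime `p ≥ 7`, two vectors of `ℂ^6` that are, up to phase factors, `1/√6` times
vectors of roots of unity of `p`-power order never have an inner product of squared modulus `1/6`.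
(2): in every family of pairwise mutually unbiased `6 × 6` matrices (in particular, of unitary
matrices whose columns are pairwise mutually unbiased orthonormal bases of `ℂ^6`) and for every
prime `p ≥ 7`, at most one member has a column that is such a vector.
(3): if a member of such a family has a column all of whose entries are `1/√6`, then no column of
any other member is, up to a phase factor, `1/√6` times a vector of Gaussian integers, of
Eisenstein integers, or of roots of unity of `p`-power order for a prime `p ≥ 7`. -/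
theorem result :
    (∀ p : ℕ, p.Prime → 7 ≤ p → ∀ u v : Fin 6 → ℂ, RootRay p u → RootRay p v →
        ‖∑ j : Fin 6, (starRingEnd ℂ) (u j) * v j‖ ^ 2 ≠ 1 / 6) ∧
    ∀ (k : ℕ) (U : Fin k → Matrix (Fin 6) (Fin 6) ℂ),
      (∀ i j, i ≠ j → MutuallyUnbiased (U i) (U j)) →
      (∀ p : ℕ, p.Prime → 7 ≤ p → ∀ i j, (∃ b, RootRay p fun a => U i a b) →
        (∃ b, RootRay p fun a => U j a b) → i = j) ∧
      ∀ i j, i ≠ j → (∃ b, ∀ a, U i a b = (Real.sqrt 6 : ℂ)⁻¹) →
        ∀ b, ¬ GaussRay (fun a => U j a b) ∧ ¬ EisensteinRay (fun a => U j a b) ∧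
          ∀ p : ℕ, p.Prime → 7 ≤ p → ¬ RootRay p (fun a => U j a b) := by
  refine ⟨root_ray_not_unbiased, ?_⟩
  intro k U hMU
  refine ⟨?_, ?_⟩
  · rintro p hp h7 i j ⟨b, hb⟩ ⟨b', hb'⟩
    by_contra hne
    have h := hMU i j hne b b'
    rw [entry_cols] at h
    exact root_ray_not_unbiased p hp h7 _ _ hb hb' h
  · rintro i j hne ⟨b0, hb0⟩ b
    have h := hMU i j hne b0 b
    rw [entry_cols] at h
    refine ⟨fun hG => ?_, fun hE => ?_, fun p hp h7 hR => ?_⟩
    · exact gauss_ray_not_unbiased _ _ (flat_gauss (fun a => U i a b0) hb0) hG h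
    · exact eis_ray_not_unbiased _ _ (flat_eis (fun a => U i a b0) hb0) hE h
    · exact root_ray_not_unbiased p hp h7 _ _ (flat_root p (fun a => U i a b0) hb0) hR h

end Vale.Agent.Results.P355.PrimePowerRootRays
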