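import Mathlib
import Vale.Agent.Results.P355.PrimePowerRootRays

/-!
# P355 (mutually unbiased bases in dimension six): signed roots of unity of prime-power order

Let `p ≥ 7` be a prime.  Six numbers of the form `± ζ` with `ζ` a root of unity of `p`-power
order never add up to a complex number of modulus `√6`: if `|σ_1 ζ^{e_1} + ⋯ + σ_6 ζ^{e_6}|^2 = 6`
with signs `σ_j = ± 1` and `ζ` a primitive `p^m`-th root of unity, then `ζ` is a root of an
integer polynomial `P` with `P(1) = (σ_1 + ⋯ + σ_6)^2 - 6 ∈ {30, 10, -2, -6}`, and `p = Φ_{p^m}(1)`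
divides `P(1)`, hence `p ∣ 30`.  So two vectors of `ℂ^6` that are, up to phase factors, `1/√6`
times vectors of roots of unity of order dividing `2 p^k` are never unbiased.  This contains the
statement of `PrimePowerRootRays` (orders dividing `p^k`).
-/

namespace Vale.Agent.Results.P355.SignedRootRays

open Matrix Polynomial
open Vale.Agent.Results.P355.GaussEisenstein (MutuallyUnbiased)
open Vale.Agent.Results.P355.GaussEisensteinRays (norm_phase entry_cols)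
open Vale.Agent.Results.P355.PrimePowerRootRays (RootRay prime_dvd_eval_one not_dvd_thirty)

/-- `u ∈ ℂ^6` is, up to a phase factor `c` with `|c| = 1`, equal to `1/√6` times a vector of
roots of unity of order dividing `2 p^k` for some `k` (that is, of numbers `± ζ` with `ζ` a root
of unity of `p`-power order when `p` is odd): every coordinate `z` of `√6 • (c • u)` satisfies
`z ^ (2 * p ^ k) = 1`. -/
def SignedRootRay (p : ℕ) (u : Fin 6 → ℂ) : Prop :=
  ∃ c : ℂ, ‖c‖ = 1 ∧ ∃ k : ℕ, ∀ j : Fin 6, ((Real.sqrt 6 : ℂ) * (c * u j)) ^ (2 * p ^ k) = 1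

lemma sign_sum_dvd (σ : Fin 6 → ℤ) (hσ : ∀ j, σ j = 1 ∨ σ j = -1) :
    ((∑ j : Fin 6, σ j) ^ 2 - 6) ∣ 30 := by
  rw [Fin.sum_univ_six]
  rcases hσ 0 with h0 | h0 <;> rcases hσ 1 with h1 | h1 <;> rcases hσ 2 with h2 | h2 <;>
    rcases hσ 3 with h3 | h3 <;> rcases hσ 4 with h4 | h4 <;> rcases hσ 5 with h5 | h5 <;>
    rw [h0, h1, h2, h3, h4, h5] <;> norm_num

lemma signed_sum_ne (p K : ℕ) (hp : p.Prime) (h7 : 7 ≤ p) (ζ : ℂ)
    (hζ : IsPrimitiveRoot ζ (p ^ (K + 1))) (σ : Fin 6 → ℤ) (hσ : ∀ j, σ j = 1 ∨ σ j = -1)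
    (e : Fin 6 → ℕ) : ‖∑ j : Fin 6, (σ j : ℂ) * ζ ^ e j‖ ^ 2 ≠ 6 := by
  intro h
  have hqpos : 0 < p ^ (K + 1) := pow_pos hp.pos _
  have hζq : ζ ^ (p ^ (K + 1)) = 1 := hζ.pow_eq_one
  have hnorm : ‖ζ‖ = 1 := Complex.norm_eq_one_of_pow_eq_one hζq hqpos.ne'
  have hconj : (starRingEnd ℂ) ζ = ζ ^ (p ^ (K + 1) - 1) := by
    rw [← Complex.inv_eq_conj hnorm]
    symm
    apply eq_inv_of_mul_eq_one_left
    rw [← pow_succ, Nat.sub_add_cancel hqpos, hζq]
  have h1 : ((‖∑ j : Fin 6, (σ j : ℂ) * ζ ^ e j‖ ^ 2 : ℝ) : ℂ)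
      = (∑ j : Fin 6, (σ j : ℂ) * ζ ^ e j) * (starRingEnd ℂ) (∑ j : Fin 6, (σ j : ℂ) * ζ ^ e j) := by
    rw [Complex.mul_conj, Complex.normSq_eq_norm_sq]
  rw [h] at h1
  have hP : aeval ζ (∑ j : Fin 6, ∑ l : Fin 6,
      C (σ j * σ l) * (X : ℤ[X]) ^ (e j + (p ^ (K + 1) - 1) * e l) - C 6) = 0 := by
    simp only [map_sub, map_sum, map_mul, map_pow, aeval_X, hconj, map_intCast,
      eq_intCast] at h1 ⊢
    rw [Finset.sum_mul_sum] at h1
    have h2 : ∀ j l : Fin 6, (σ j : ℂ) * (σ l : ℂ) * ζ ^ (e j + (p ^ (K + 1) - 1) * e l)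
        = (σ j : ℂ) * ζ ^ e j * ((σ l : ℂ) * (ζ ^ (p ^ (K + 1) - 1)) ^ e l) := fun j l => by
      rw [pow_add, pow_mul]
      ring
    simp only [h2]
    rw [← h1]
    exact sub_self _
  have hdvd := prime_dvd_eval_one p K hp ζ hζ _ hP
  have heval : (∑ j : Fin 6, ∑ l : Fin 6,
      C (σ j * σ l) * (X : ℤ[X]) ^ (e j + (p ^ (K + 1) - 1) * e l) - C 6).eval 1
      = (∑ j : Fin 6, σ j) ^ 2 - 6 := by
    simp only [eval_sub, eval_finsetSum, eval_mul, eval_C, eval_pow, eval_X, one_pow, mul_one]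
    rw [sq, Finset.sum_mul_sum]
  rw [heval] at hdvd
  have h30 : (p : ℤ) ∣ 30 := hdvd.trans (sign_sum_dvd σ hσ)
  exact not_dvd_thirty p hp h7 (by exact_mod_cast h30)

lemma signed_ray_not_unbiased (p : ℕ) (hp : p.Prime) (h7 : 7 ≤ p) (u v : Fin 6 → ℂ)
    (hu : SignedRootRay p u) (hv : SignedRootRay p v) :
    ‖∑ j : Fin 6, (starRingEnd ℂ) (u j) * v j‖ ^ 2 ≠ 1 / 6 := by
  obtain ⟨c, hc, k, hcu⟩ := hu
  obtain ⟨c', hc', k', hcv⟩ := hv
  intro h
  have hqpos : 0 < p ^ (k + k' + 1) := pow_pos hp.pos _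
  have hodd : Odd (p ^ (k + k' + 1)) := by
    rcases hp.eq_two_or_odd' with h2 | h2
    · omega
    · exact h2.pow
  have hζ : IsPrimitiveRoot (Complex.exp (2 * Real.pi * Complex.I / ((p ^ (k + k' + 1) : ℕ) : ℂ)))
      (p ^ (k + k' + 1)) := Complex.isPrimitiveRoot_exp _ hqpos.ne'
  have hne : NeZero (p ^ (k + k' + 1)) := ⟨hqpos.ne'⟩
  have ha : ∀ j, ((Real.sqrt 6 : ℂ) * (c * u j)) ^ (p ^ (k + k' + 1)) = 1 ∨
      ((Real.sqrt 6 : ℂ) * (c * u j)) ^ (p ^ (k + k' + 1)) = -1 := fun j => by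
    have h2 : (((Real.sqrt 6 : ℂ) * (c * u j)) ^ (p ^ (k + k' + 1))) *
        (((Real.sqrt 6 : ℂ) * (c * u j)) ^ (p ^ (k + k' + 1))) = 1 := by
      have : p ^ (k + k' + 1) + p ^ (k + k' + 1) = 2 * p ^ k * p ^ (k' + 1) := by
        rw [mul_assoc, ← pow_add, add_assoc]; ring
      rw [← pow_add, this, pow_mul, hcu j, one_pow]
    exact mul_self_eq_one_iff.mp h2
  have hb : ∀ j, ((Real.sqrt 6 : ℂ) * (c' * v j)) ^ (p ^ (k + k' + 1)) = 1 ∨
      ((Real.sqrt 6 : ℂ) * (c' * v j)) ^ (p ^ (k + k' + 1)) = -1 := fun j => by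
    have h2 : (((Real.sqrt 6 : ℂ) * (c' * v j)) ^ (p ^ (k + k' + 1))) *
        (((Real.sqrt 6 : ℂ) * (c' * v j)) ^ (p ^ (k + k' + 1))) = 1 := by
      have : p ^ (k + k' + 1) + p ^ (k + k' + 1) = 2 * p ^ k' * p ^ (k + 1) := by
        rw [mul_assoc, ← pow_add]
        have : k' + (k + 1) = k + k' + 1 := by omega
        rw [this]; ring
      rw [← pow_add, this, pow_mul, hcv j, one_pow]
    exact mul_self_eq_one_iff.mp h2
  have hex : ∀ j, ∃ (s : ℤ) (i : ℕ), (s = 1 ∨ s = -1) ∧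
      (s : ℂ) * Complex.exp (2 * Real.pi * Complex.I / ((p ^ (k + k' + 1) : ℕ) : ℂ)) ^ i
      = (starRingEnd ℂ) ((Real.sqrt 6 : ℂ) * (c * u j)) * ((Real.sqrt 6 : ℂ) * (c' * v j)) :=
    fun j => by
      have ht : ((starRingEnd ℂ) ((Real.sqrt 6 : ℂ) * (c * u j)) *
          ((Real.sqrt 6 : ℂ) * (c' * v j))) ^ (p ^ (k + k' + 1)) = 1 ∨
          ((starRingEnd ℂ) ((Real.sqrt 6 : ℂ) * (c * u j)) *
          ((Real.sqrt 6 : ℂ) * (c' * v j))) ^ (p ^ (k + k' + 1)) = -1 := by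
        rw [mul_pow, ← map_pow]
        rcases ha j with h1 | h1 <;> rcases hb j with h2 | h2 <;> rw [h1, h2] <;> simp
      rcases ht with h1 | h1
      · obtain ⟨i, -, hi⟩ := hζ.eq_pow_of_pow_eq_one h1
        exact ⟨1, i, Or.inl rfl, by rw [hi]; simp⟩
      · have h1' : (-((starRingEnd ℂ) ((Real.sqrt 6 : ℂ) * (c * u j)) *
            ((Real.sqrt 6 : ℂ) * (c' * v j)))) ^ (p ^ (k + k' + 1)) = 1 := by
          rw [Odd.neg_pow hodd, h1, neg_neg]
        obtain ⟨i, -, hi⟩ := hζ.eq_pow_of_pow_eq_one h1'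
        exact ⟨-1, i, Or.inr rfl, by rw [hi]; simp⟩
  choose σ e hσ he using hex
  have h6 : (Real.sqrt 6 : ℂ) * (Real.sqrt 6 : ℂ) = 6 := by
    rw [← Complex.ofReal_mul, Real.mul_self_sqrt (by norm_num)]
    norm_num
  have hsum : ∑ j, (σ j : ℂ) *
      Complex.exp (2 * Real.pi * Complex.I / ((p ^ (k + k' + 1) : ℕ) : ℂ)) ^ e j
      = 6 * ((starRingEnd ℂ) c * c' * ∑ j, (starRingEnd ℂ) (u j) * v j) := by
    rw [Finset.mul_sum, Finset.mul_sum]
    refine Finset.sum_congr rfl fun j _ => ?_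
    rw [he j]
    simp only [map_mul, Complex.conj_ofReal]
    linear_combination ((starRingEnd ℂ) c * c' * (starRingEnd ℂ) (u j) * v j) * h6
  apply signed_sum_ne p (k + k') hp h7 _ hζ σ hσ e
  rw [hsum, norm_mul, norm_phase _ _ _ hc hc', mul_pow, h]
  norm_num

/-- (1): for a prime `p ≥ 7`, two vectors of `ℂ^6` that are, up to phase factors, `1/√6` times
vectors of roots of unity of order dividing `2 p^k` never have an inner product of squared
modulus `1/6`.  (2): in every family of pairwise mutually unbiased `6 × 6` matrices and for every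
prime `p ≥ 7`, at most one member has a column that is such a vector.  (3): the vectors of
`PrimePowerRootRays` (orders dividing `p^k`) are among them. -/
theorem result :
    (∀ p : ℕ, p.Prime → 7 ≤ p → ∀ u v : Fin 6 → ℂ, SignedRootRay p u → SignedRootRay p v →
        ‖∑ j : Fin 6, (starRingEnd ℂ) (u j) * v j‖ ^ 2 ≠ 1 / 6) ∧
    (∀ (k : ℕ) (U : Fin k → Matrix (Fin 6) (Fin 6) ℂ),
      (∀ i j, i ≠ j → MutuallyUnbiased (U i) (U j)) →
      ∀ p : ℕ, p.Prime → 7 ≤ p → ∀ i j, (∃ b, SignedRootRay p fun a => U i a b) →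
        (∃ b, SignedRootRay p fun a => U j a b) → i = j) ∧
    ∀ (p : ℕ) (u : Fin 6 → ℂ), RootRay p u → SignedRootRay p u := by
  refine ⟨signed_ray_not_unbiased, ?_, ?_⟩
  · rintro k U hMU p hp h7 i j ⟨b, hb⟩ ⟨b', hb'⟩
    by_contra hne
    have h := hMU i j hne b b'
    rw [entry_cols] at h
    exact signed_ray_not_unbiased p hp h7 _ _ hb hb' h
  · rintro p u ⟨c, hc, k, hk⟩
    exact ⟨c, hc, k, fun j => by rw [mul_comm 2 (p ^ k), pow_mul, hk j, one_pow]⟩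

end Vale.Agent.Results.P355.SignedRootRays
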